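import Vale.Agent.P155.Defs2

/-!
# P155, block L1: double-dimer loops are simple lattice cycles
-/

namespace Vale.Agent.P155.L

open Finset Function

variable {V : Finset Pt} {ω : Conf}

/-- the two matchings are involutions -/
theorem inv1 (hω : ω ∈ DD V) (v : Pt) : ω.1 (ω.1 v) = v :=
  (mem_PM.1 (Finset.mem_product.1 hω).1).invol v

theorem inv2 (hω : ω ∈ DD V) (v : Pt) : ω.2 (ω.2 v) = v :=
  (mem_PM.1 (Finset.mem_product.1 hω).2).invol v

theorem off1 (hω : ω ∈ DD V) {v : Pt} (hv : v ∉ V) : ω.1 v = v :=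
  (mem_PM.1 (Finset.mem_product.1 hω).1).off v hv

theorem off2 (hω : ω ∈ DD V) {v : Pt} (hv : v ∉ V) : ω.2 v = v :=
  (mem_PM.1 (Finset.mem_product.1 hω).2).off v hv

theorem adj1 (hω : ω ∈ DD V) {v : Pt} (hv : v ∈ V) : Adj v (ω.1 v) :=
  (mem_PM.1 (Finset.mem_product.1 hω).1).adj v hv

theorem adj2 (hω : ω ∈ DD V) {v : Pt} (hv : v ∈ V) : Adj v (ω.2 v) :=
  (mem_PM.1 (Finset.mem_product.1 hω).2).adj v hv

theorem mem1 (hω : ω ∈ DD V) {v : Pt} (hv : v ∈ V) : ω.1 v ∈ V := by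
  by_contra h
  have h1 := off1 hω h
  rw [inv1 hω] at h1
  exact h (h1 ▸ hv)

theorem mem2 (hω : ω ∈ DD V) {v : Pt} (hv : v ∈ V) : ω.2 v ∈ V := by
  by_contra h
  have h1 := off2 hω h
  rw [inv2 hω] at h1
  exact h (h1 ▸ hv)

theorem adj_symm {u v : Pt} (h : Adj u v) : Adj v u := by
  unfold Adj at *
  rw [abs_sub_comm v.1, abs_sub_comm v.2]
  exact h

theorem adj_even {u v : Pt} (h : Adj u v) : Even (v.1 + v.2) ↔ ¬ Even (u.1 + u.2) := by
  rw [← mem_nbrs] at h
  simp only [nbrs, mem_insert, mem_singleton] at h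
  rcases h with rfl | rfl | rfl | rfl <;> simp only [Int.even_add, Int.even_sub] <;>
    by_cases h1 : Even u.1 <;> by_cases h2 : Even u.2 <;> simp [h1, h2]

theorem adj_ne {u v : Pt} (h : Adj u v) : u ≠ v := by
  rintro rfl
  simp [Adj] at h

/-- one round trip -/
def rot (ω : Conf) (v : Pt) : Pt := ω.2 (ω.1 v)

theorem rot_inj (hω : ω ∈ DD V) : Injective (rot ω) := by
  intro a b h
  have h1 := congrArg ω.2 h
  simp only [rot, inv2 hω] at h1
  have h2 := congrArg ω.1 h1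
  simpa [inv1 hω] using h2

theorem rot_mem (hω : ω ∈ DD V) {v : Pt} (hv : v ∈ V) : rot ω v ∈ V := mem2 hω (mem1 hω hv)

theorem iter_mem (hω : ω ∈ DD V) {v : Pt} (hv : v ∈ V) (n : ℕ) : (rot ω)^[n] v ∈ V := by
  induction n with
  | zero => exact hv
  | succ n ih => rw [iterate_succ_apply']; exact rot_mem hω ih

theorem rot_even (hω : ω ∈ DD V) {v : Pt} (hv : v ∈ V) :
    Even ((rot ω v).1 + (rot ω v).2) ↔ Even (v.1 + v.2) := by
  unfold rot
  rw [adj_even (adj2 hω (mem1 hω hv)), adj_even (adj1 hω hv), not_not]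

theorem iter_even (hω : ω ∈ DD V) {v : Pt} (hv : v ∈ V) (n : ℕ) :
    Even (((rot ω)^[n] v).1 + ((rot ω)^[n] v).2) ↔ Even (v.1 + v.2) := by
  induction n with
  | zero => rfl
  | succ n ih => rw [iterate_succ_apply', rot_even hω (iter_mem hω hv n), ih]

theorem rot_periodic (hω : ω ∈ DD V) {v : Pt} (hv : v ∈ V) : v ∈ periodicPts (rot ω) := by
  classical
  have hfin : ({x | x ∈ V} : Set Pt).Finite := V.finite_toSet
  -- pigeonhole on iterates
  obtain ⟨i, j, hij, h⟩ : ∃ i j : ℕ, i ≠ j ∧ (rot ω)^[i] v = (rot ω)^[j] v := by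
    by_contra hcon
    push Not at hcon
    have hinj : Injective (fun n : ℕ => (⟨(rot ω)^[n] v, iter_mem hω hv n⟩ : V)) := by
      intro a b hab
      by_contra hne
      exact hcon a b hne (congrArg Subtype.val hab)
    exact not_injective_infinite_finite _ hinj
  wlog hlt : i < j generalizing i j
  · exact this j i hij.symm h.symm (lt_of_le_of_ne (not_lt.1 hlt) hij.symm)
  refine ⟨j - i, Nat.sub_pos_of_lt hlt, ?_⟩
  have h2 : (rot ω)^[i] ((rot ω)^[j - i] v) = (rot ω)^[i] v := by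
    rw [← iterate_add_apply, Nat.add_sub_cancel' hlt.le, ← h]
  exact ((rot_inj hω).iterate i) h2

/-- the sequence `v, m₁ v, m₂ m₁ v, …` -/
def seq (ω : Conf) (v : Pt) (k : ℕ) : Pt :=
  if Even k then (rot ω)^[k / 2] v else ω.1 ((rot ω)^[k / 2] v)

theorem seq_even (ω : Conf) (v : Pt) (i : ℕ) : seq ω v (2 * i) = (rot ω)^[i] v := by
  simp [seq]

theorem seq_odd (ω : Conf) (v : Pt) (i : ℕ) : seq ω v (2 * i + 1) = ω.1 ((rot ω)^[i] v) := by
  have h1 : ¬ Even (2 * i + 1) := by simp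
  have h2 : (2 * i + 1) / 2 = i := by omega
  simp [seq, h1, h2]

theorem seq_mem (hω : ω ∈ DD V) {v : Pt} (hv : v ∈ V) (k : ℕ) : seq ω v k ∈ V := by
  rcases Nat.even_or_odd' k with ⟨i, rfl | rfl⟩
  · rw [seq_even]; exact iter_mem hω hv i
  · rw [seq_odd]; exact mem1 hω (iter_mem hω hv i)

theorem seq_succ (ω : Conf) (v : Pt) (k : ℕ) :
    seq ω v (k + 1) = if Even k then ω.1 (seq ω v k) else ω.2 (seq ω v k) := by
  rcases Nat.even_or_odd' k with ⟨i, rfl | rfl⟩
  · rw [seq_odd, seq_even, if_pos (even_two_mul i)]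
  · have : 2 * i + 1 + 1 = 2 * (i + 1) := by ring
    rw [this, seq_even, seq_odd, iterate_succ_apply', if_neg (by simp)]
    rfl

theorem seq_adj (hω : ω ∈ DD V) {v : Pt} (hv : v ∈ V) (k : ℕ) :
    Adj (seq ω v k) (seq ω v (k + 1)) := by
  rw [seq_succ]
  split_ifs
  · exact adj1 hω (seq_mem hω hv k)
  · exact adj2 hω (seq_mem hω hv k)

theorem seq_parity (hω : ω ∈ DD V) {v : Pt} (hv : v ∈ V) (k : ℕ) :
    Even ((seq ω v k).1 + (seq ω v k).2) ↔ (Even k ↔ Even (v.1 + v.2)) := by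
  rcases Nat.even_or_odd' k with ⟨i, rfl | rfl⟩
  · rw [seq_even, iter_even hω hv]
    simp
  · rw [seq_odd, adj_even (adj1 hω (iter_mem hω hv i)), iter_even hω hv]
    simp

section period

variable (hω : ω ∈ DD V) {v : Pt} (hv : v ∈ V)

theorem seq_per {p : ℕ} (hp : (rot ω)^[p] v = v) (k : ℕ) : seq ω v (k + 2 * p) = seq ω v k := by
  rcases Nat.even_or_odd' k with ⟨i, rfl | rfl⟩
  · rw [← mul_add, seq_even, seq_even, iterate_add_apply, hp]
  · rw [show 2 * i + 1 + 2 * p = 2 * (i + p) + 1 by ring, seq_odd, seq_odd, iterate_add_apply, hp]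

theorem seq_mod {p : ℕ} (hp : (rot ω)^[p] v = v) (k : ℕ) :
    seq ω v (k % (2 * p)) = seq ω v k := by
  have h : ∀ j k, seq ω v (k + 2 * p * j) = seq ω v k := by
    intro j
    induction j with
    | zero => intro k; simp
    | succ j ih => intro k; rw [Nat.mul_succ, ← add_assoc, seq_per hp, ih]
  conv_rhs => rw [← Nat.mod_add_div k (2 * p)]
  rw [h]

end period

theorem minPer_pos (hω : ω ∈ DD V) {v : Pt} (hv : v ∈ V) : 0 < minimalPeriod (rot ω) v :=
  minimalPeriod_pos_of_mem_periodicPts (rot_periodic hω hv)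

theorem seq_inj (hω : ω ∈ DD V) {v : Pt} (hv : v ∈ V) {i j : ℕ}
    (hi : i < 2 * minimalPeriod (rot ω) v) (hj : j < 2 * minimalPeriod (rot ω) v)
    (h : seq ω v i = seq ω v j) : i = j := by
  have hpar : Even i ↔ Even j := by
    have h1 := seq_parity hω hv i
    have h2 := seq_parity hω hv j
    rw [h] at h1
    rw [h1] at h2
    by_cases ha : Even (v.1 + v.2) <;> simp only [ha, iff_true, iff_false] at h2 <;> tauto
  rcases Nat.even_or_odd' i with ⟨a, rfl | rfl⟩ <;> rcases Nat.even_or_odd' j with ⟨b, rfl | rfl⟩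
  · rw [seq_even, seq_even] at h
    have := (iterate_eq_iterate_iff_of_lt_minimalPeriod (by omega) (by omega)).1 h
    omega
  · exfalso; simp at hpar
  · exfalso; simp at hpar
  · rw [seq_odd, seq_odd] at h
    have h1 := congrArg ω.1 h
    rw [inv1 hω, inv1 hω] at h1
    have := (iterate_eq_iterate_iff_of_lt_minimalPeriod (by omega) (by omega)).1 h1
    omega

theorem two_le_minPer (hω : ω ∈ DD V) {v : Pt} (hv : v ∈ V) (hne : ω.1 v ≠ ω.2 v) :
    2 ≤ minimalPeriod (rot ω) v := by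
  have h0 := minPer_pos hω hv
  rcases Nat.lt_or_ge 1 (minimalPeriod (rot ω) v) with h | h
  · exact h
  · exfalso
    have h1 : minimalPeriod (rot ω) v = 1 := by omega
    have h2 : IsPeriodicPt (rot ω) 1 v := h1 ▸ isPeriodicPt_minimalPeriod (rot ω) v
    have h3 : rot ω v = v := h2
    apply hne
    have h4 := congrArg ω.2 h3
    simpa [rot, inv2 hω] using h4

theorem mem_V_of_ne (hω : ω ∈ DD V) {v : Pt} (hne : ω.1 v ≠ ω.2 v) : v ∈ V := by
  by_contra h
  exact hne (by rw [off1 hω h, off2 hω h])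

/-- the lattice cycle through `v` -/
noncomputable def cyc (hω : ω ∈ DD V) {v : Pt} (hne : ω.1 v ≠ ω.2 v) : LatCycle where
  n := 2 * minimalPeriod (rot ω) v
  hn := by have := two_le_minPer hω (mem_V_of_ne hω hne) hne; omega
  c i := seq ω v i.val
  inj := by
    have hv := mem_V_of_ne hω hne
    have hp := two_le_minPer hω hv hne
    have : NeZero (2 * minimalPeriod (rot ω) v) := ⟨by omega⟩
    intro i j h
    exact ZMod.val_injective _ (seq_inj hω hv (ZMod.val_lt i) (ZMod.val_lt j) h)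
  adj := by
    have hv := mem_V_of_ne hω hne
    have hp := two_le_minPer hω hv hne
    have : NeZero (2 * minimalPeriod (rot ω) v) := ⟨by omega⟩
    intro i
    have hper : (rot ω)^[minimalPeriod (rot ω) v] v = v := iterate_minimalPeriod
    have h1 : seq ω v (i + 1).val = seq ω v (i.val + 1) := by
      rw [ZMod.val_add, ZMod.val_one'' (by omega)]
      exact seq_mod hper _
    rw [h1]
    exact seq_adj hω hv _

theorem cyc_c (hω : ω ∈ DD V) {v : Pt} (hne : ω.1 v ≠ ω.2 v) (i : ZMod (cyc hω hne).n) :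
    (cyc hω hne).c i = seq ω v i.val := rfl

theorem cyc_n (hω : ω ∈ DD V) {v : Pt} (hne : ω.1 v ≠ ω.2 v) :
    (cyc hω hne).n = 2 * minimalPeriod (rot ω) v := rfl

instance cyc_neZero (hω : ω ∈ DD V) {v : Pt} (hne : ω.1 v ≠ ω.2 v) : NeZero (cyc hω hne).n :=
  ⟨by have := (cyc hω hne).hn; omega⟩

/-! ### components -/

theorem same_refl (ω : Conf) (v : Pt) : Same ω v v := Relation.ReflTransGen.refl

theorem same_trans {u v w : Pt} (h : Same ω u v) (h' : Same ω v w) : Same ω u w :=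
  Relation.ReflTransGen.trans h h'

theorem same_m1 (ω : Conf) (v : Pt) : Same ω v (ω.1 v) := Relation.ReflTransGen.single (Or.inl rfl)

theorem same_m2 (ω : Conf) (v : Pt) : Same ω v (ω.2 v) := Relation.ReflTransGen.single (Or.inr rfl)

theorem same_symm (hω : ω ∈ DD V) {u v : Pt} (h : Same ω u v) : Same ω v u := by
  induction h with
  | refl => exact same_refl _ _
  | @tail b c _ hab ih =>
    refine same_trans ?_ ih
    rcases hab with rfl | rfl
    · have := same_m1 ω (ω.1 b)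
      rwa [inv1 hω] at this
    · have := same_m2 ω (ω.2 b)
      rwa [inv2 hω] at this

theorem comp_eq_of_mem (hω : ω ∈ DD V) {u v : Pt} (h : u ∈ comp ω v) : comp ω u = comp ω v := by
  ext w
  exact ⟨fun hw => same_trans h hw, fun hw => same_trans (same_symm hω h) hw⟩

theorem comp_subset_of_closed {S : Set Pt} {v : Pt} (hv : v ∈ S) (h1 : ∀ u ∈ S, ω.1 u ∈ S)
    (h2 : ∀ u ∈ S, ω.2 u ∈ S) : comp ω v ⊆ S := by
  intro u hu
  induction hu with
  | refl => exact hv
  | tail _ hab ih =>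
    rcases hab with rfl | rfl
    · exact h1 _ ih
    · exact h2 _ ih

theorem seq_same (ω : Conf) (v : Pt) (k : ℕ) : Same ω v (seq ω v k) := by
  induction k with
  | zero => simpa [seq] using same_refl ω v
  | succ k ih =>
    rw [seq_succ]
    split_ifs
    · exact same_trans ih (same_m1 _ _)
    · exact same_trans ih (same_m2 _ _)

/-- `ω.1` moves along the sequence -/
theorem m1_seq (hω : ω ∈ DD V) (v : Pt) (k : ℕ) :
    ω.1 (seq ω v k) = if Even k then seq ω v (k + 1) else seq ω v (k - 1) := by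
  rcases Nat.even_or_odd' k with ⟨i, rfl | rfl⟩
  · rw [if_pos (even_two_mul i), seq_succ, if_pos (even_two_mul i)]
  · rw [if_neg (by simp), seq_odd, inv1 hω, Nat.add_sub_cancel, seq_even]

theorem m2_seq (hω : ω ∈ DD V) (v : Pt) (k : ℕ) :
    ω.2 (seq ω v (k + 1)) = if Even k then seq ω v (k + 2) else seq ω v k := by
  rcases Nat.even_or_odd' k with ⟨i, rfl | rfl⟩
  · rw [if_pos (even_two_mul i), seq_succ ω v (2 * i + 1), if_neg (by simp)]
  · rw [if_neg (by simp), seq_succ ω v (2 * i + 1), if_neg (by simp), inv2 hω]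

theorem range_seq (hω : ω ∈ DD V) {v : Pt} (hne : ω.1 v ≠ ω.2 v) :
    (cyc hω hne).verts = Set.range (seq ω v) := by
  have hper : (rot ω)^[minimalPeriod (rot ω) v] v = v := iterate_minimalPeriod
  ext u
  constructor
  · rintro ⟨i, rfl⟩
    exact ⟨i.val, rfl⟩
  · rintro ⟨k, rfl⟩
    refine ⟨(k : ZMod (cyc hω hne).n), ?_⟩
    rw [cyc_c, ZMod.val_natCast, cyc_n]
    exact seq_mod hper k

theorem cyc_verts (hω : ω ∈ DD V) {v : Pt} (hne : ω.1 v ≠ ω.2 v) :
    (cyc hω hne).verts = comp ω v := by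
  rw [range_seq]
  have hv := mem_V_of_ne hω hne
  have hper : (rot ω)^[minimalPeriod (rot ω) v] v = v := iterate_minimalPeriod
  have hp0 := minPer_pos hω hv
  apply Set.Subset.antisymm
  · rintro _ ⟨k, rfl⟩
    exact seq_same ω v k
  · apply comp_subset_of_closed
    · exact ⟨0, by simp [seq]⟩
    · rintro _ ⟨k, rfl⟩
      rw [m1_seq hω]
      split_ifs
      · exact ⟨_, rfl⟩
      · exact ⟨_, rfl⟩
    · rintro _ ⟨k, rfl⟩
      have h1 : seq ω v k = seq ω v ((k + (2 * minimalPeriod (rot ω) v - 1)) + 1) := by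
        rw [show k + (2 * minimalPeriod (rot ω) v - 1) + 1 = k + 2 * minimalPeriod (rot ω) v by omega,
          seq_per hper]
      rw [h1, m2_seq hω]
      split_ifs
      · exact ⟨_, rfl⟩
      · exact ⟨_, rfl⟩

/-- every point of a loop has two different partners -/
theorem ne_of_mem_comp (hω : ω ∈ DD V) {v u : Pt} (hne : ω.1 v ≠ ω.2 v) (hu : u ∈ comp ω v) :
    ω.1 u ≠ ω.2 u := by
  intro h
  apply hne
  have h2 : comp ω u ⊆ {u, ω.1 u} := by
    apply comp_subset_of_closed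
    · exact Set.mem_insert _ _
    · rintro x (rfl | rfl)
      · exact Set.mem_insert_of_mem _ rfl
      · rw [inv1 hω]; exact Set.mem_insert _ _
    · rintro x (rfl | rfl)
      · rw [← h]; exact Set.mem_insert_of_mem _ rfl
      · rw [h, inv2 hω]; exact Set.mem_insert _ _
  have hv : v ∈ comp ω u := same_symm hω hu
  rcases h2 hv with rfl | h3
  · exact h
  · have h3 : v = ω.1 u := h3
    rw [h3, inv1 hω, h, inv2 hω]

theorem comp_subset_V (hω : ω ∈ DD V) {v : Pt} (hv : v ∈ V) : comp ω v ⊆ (V : Set Pt) := by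
  apply comp_subset_of_closed
  · exact hv
  · intro u hu; exact mem1 hω hu
  · intro u hu; exact mem2 hω hu

/-! ### loops -/

theorem loop_iff {L : Set Pt} : L ∈ Loops ω ↔ ∃ v, ω.1 v ≠ ω.2 v ∧ L = comp ω v := Iff.rfl

theorem loop_ne (hω : ω ∈ DD V) {L : Set Pt} (hL : L ∈ Loops ω) {u : Pt} (hu : u ∈ L) :
    ω.1 u ≠ ω.2 u := by
  obtain ⟨v, hv, rfl⟩ := hL
  exact ne_of_mem_comp hω hv hu

theorem loop_eq_comp (hω : ω ∈ DD V) {L : Set Pt} (hL : L ∈ Loops ω) {u : Pt} (hu : u ∈ L) :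
    L = comp ω u := by
  obtain ⟨v, hv, rfl⟩ := hL
  exact (comp_eq_of_mem hω hu).symm

theorem loop_subset (hω : ω ∈ DD V) {L : Set Pt} (hL : L ∈ Loops ω) : L ⊆ (V : Set Pt) := by
  obtain ⟨v, hv, rfl⟩ := hL
  exact comp_subset_V hω (mem_V_of_ne hω hv)

theorem loop_finite (hω : ω ∈ DD V) {L : Set Pt} (hL : L ∈ Loops ω) : L.Finite :=
  V.finite_toSet.subset (loop_subset hω hL)

theorem loop_nonempty {L : Set Pt} (hL : L ∈ Loops ω) : L.Nonempty := by
  obtain ⟨v, _, rfl⟩ := hL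
  exact ⟨v, same_refl ω v⟩

theorem loop_m1 {L : Set Pt} (hL : L ∈ Loops ω) {u : Pt} (hu : u ∈ L) : ω.1 u ∈ L := by
  obtain ⟨v, _, rfl⟩ := hL
  exact same_trans hu (same_m1 ω u)

theorem loop_m2 {L : Set Pt} (hL : L ∈ Loops ω) {u : Pt} (hu : u ∈ L) : ω.2 u ∈ L := by
  obtain ⟨v, _, rfl⟩ := hL
  exact same_trans hu (same_m2 ω u)

theorem loops_finite (hω : ω ∈ DD V) : (Loops ω).Finite := by
  refine ((V : Finset Pt).finite_toSet.finite_subsets).subset ?_
  intro L hL
  exact loop_subset hω hL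

theorem loops_disjoint (hω : ω ∈ DD V) {L L' : Set Pt} (hL : L ∈ Loops ω) (hL' : L' ∈ Loops ω)
    (h : L ≠ L') : Disjoint L L' := by
  rw [Set.disjoint_left]
  intro u hu hu'
  exact h ((loop_eq_comp hω hL hu).trans (loop_eq_comp hω hL' hu').symm)

/-- two consecutive points of the cycle are partners -/
theorem cyc_next (hω : ω ∈ DD V) {v : Pt} (hne : ω.1 v ≠ ω.2 v) (i : ZMod (cyc hω hne).n) :
    (cyc hω hne).c (i + 1) = ω.1 ((cyc hω hne).c i) ∨
      (cyc hω hne).c (i + 1) = ω.2 ((cyc hω hne).c i) := by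
  have hper : (rot ω)^[minimalPeriod (rot ω) v] v = v := iterate_minimalPeriod
  have h1 : (cyc hω hne).c (i + 1) = seq ω v (i.val + 1) := by
    rw [cyc_c, ZMod.val_add, ZMod.val_one'' (by have := (cyc hω hne).hn; omega)]
    exact seq_mod hper _
  rw [h1, cyc_c, seq_succ]
  split_ifs
  · exact Or.inl rfl
  · exact Or.inr rfl

/-- partners of a point of the cycle are its neighbours in the cycle -/
theorem cyc_partner (hω : ω ∈ DD V) {v : Pt} (hne : ω.1 v ≠ ω.2 v) (i : ZMod (cyc hω hne).n)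
    {u : Pt} (hu : u = ω.1 ((cyc hω hne).c i) ∨ u = ω.2 ((cyc hω hne).c i)) :
    u = (cyc hω hne).c (i + 1) ∨ u = (cyc hω hne).c (i - 1) := by
  have h1 := cyc_next hω hne i
  have h2 := cyc_next hω hne (i - 1)
  rw [sub_add_cancel] at h2
  have hn := (cyc hω hne).hn
  have hne2 : (cyc hω hne).c (i + 1) ≠ (cyc hω hne).c (i - 1) := by
    intro h
    have h3 := (cyc hω hne).inj h
    have h4 : (2 : ZMod (cyc hω hne).n) = 0 := by
      have : (i + 1) - (i - 1) = 0 := by rw [h3, sub_self]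
      ring_nf at this
      exact this
    have h5 : ((2 : ℕ) : ZMod (cyc hω hne).n) = 0 := by exact_mod_cast h4
    rw [ZMod.natCast_eq_zero_iff] at h5
    have := Nat.le_of_dvd (by norm_num) h5
    omega
  -- the previous point is also a partner of `c i`
  have h2' : (cyc hω hne).c (i - 1) = ω.1 ((cyc hω hne).c i) ∨
      (cyc hω hne).c (i - 1) = ω.2 ((cyc hω hne).c i) := by
    rcases h2 with h | h
    · left; rw [h, inv1 hω]
    · right; rw [h, inv2 hω]
  rcases h1 with h1 | h1 <;> rcases h2' with h2' | h2'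
  · exact absurd (h1.trans h2'.symm) hne2
  · rcases hu with rfl | rfl
    · left; exact h1.symm
    · right; exact h2'.symm
  · rcases hu with rfl | rfl
    · right; exact h2'.symm
    · left; exact h1.symm
  · exact absurd (h1.trans h2'.symm) hne2

theorem vedge_iff (hω : ω ∈ DD V) {v : Pt} (hne : ω.1 v ≠ ω.2 v) (j y : ℤ) :
    vedgeL ω (comp ω v) j y ↔ (cyc hω hne).vedge j y := by
  constructor
  · rintro ⟨h1, h2⟩
    rw [← cyc_verts hω hne] at h1
    obtain ⟨i, hi⟩ := h1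
    have h3 : (j, y + 1) = ω.1 ((cyc hω hne).c i) ∨ (j, y + 1) = ω.2 ((cyc hω hne).c i) := by
      rw [hi]
      exact h2.imp Eq.symm Eq.symm
    rcases cyc_partner hω hne i h3 with h4 | h4
    · exact ⟨i, Or.inl ⟨hi, h4.symm⟩⟩
    · exact ⟨i - 1, Or.inr ⟨h4.symm, by rw [sub_add_cancel]; exact hi⟩⟩
  · rintro ⟨i, ⟨h1, h2⟩ | ⟨h1, h2⟩⟩
    · refine ⟨?_, ?_⟩
      · rw [← cyc_verts hω hne, ← h1]; exact ⟨i, rfl⟩
      · have := cyc_next hω hne i
        rw [h1, h2] at this
        exact this.imp Eq.symm Eq.symm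
    · refine ⟨?_, ?_⟩
      · rw [← cyc_verts hω hne, ← h2]; exact ⟨i + 1, rfl⟩
      · have := cyc_next hω hne i
        rw [h1, h2] at this
        rcases this with h | h
        · left; rw [h, inv1 hω]
        · right; rw [h, inv2 hω]

theorem surr_iff (hω : ω ∈ DD V) {v : Pt} (hne : ω.1 v ≠ ω.2 v) (f : Pt) :
    surr ω (comp ω v) f ↔ (cyc hω hne).inside f := by
  unfold surr LatCycle.inside
  have : {j : ℤ | j ≤ f.1 ∧ vedgeL ω (comp ω v) j f.2} =
      {j : ℤ | j ≤ f.1 ∧ (cyc hω hne).vedge j f.2} := by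
    ext j
    simp only [Set.mem_ofPred_eq, vedge_iff hω hne]
  rw [this]

/-- **L1**: every double-dimer loop is a simple lattice cycle and `surr` is `inside`. -/
theorem exists_cycle (hω : ω ∈ DD V) {L : Set Pt} (hL : L ∈ Loops ω) :
    ∃ γ : LatCycle, γ.verts = L ∧ (∀ j y, vedgeL ω L j y ↔ γ.vedge j y) ∧
      (∀ f, surr ω L f ↔ γ.inside f) := by
  obtain ⟨v, hv, rfl⟩ := hL
  exact ⟨cyc hω hv, cyc_verts hω hv, vedge_iff hω hv, surr_iff hω hv⟩

end Vale.Agent.P155.L
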