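import Vale.Agent.P155.L.Cycle

/-!
# P155, block L1: the alternating form of the cycle of a loop
-/

namespace Vale.Agent.P155.L

open Finset Function

variable {V : Finset Pt} {ω : Conf}

theorem white_iff_not_even {v : Pt} : White v ↔ ¬ Even (v.1 + v.2) := by
  unfold White; rw [Int.not_even_iff_odd]

/-- **L1, alternating form**: the loop is a simple lattice cycle of even length starting at a white
vertex; even steps are `ω.1`-edges (white to black), odd steps are `ω.2`-edges. -/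
theorem exists_cycle_alt (hω : ω ∈ DD V) {L : Set Pt} (hL : L ∈ Loops ω) :
    ∃ γ : LatCycle, γ.verts = L ∧ Even γ.n ∧ White (γ.c 0) ∧
      (∀ i : ZMod γ.n, Even i.val → White (γ.c i) ∧ γ.c (i + 1) = ω.1 (γ.c i)) ∧
      (∀ i : ZMod γ.n, ¬ Even i.val → Black (γ.c i) ∧ γ.c (i + 1) = ω.2 (γ.c i)) ∧
      (∀ j y, vedgeL ω L j y ↔ γ.vedge j y) ∧ (∀ f, surr ω L f ↔ γ.inside f) := by
  -- a white starting point
  obtain ⟨v, hv, hw, hLv⟩ : ∃ v, ω.1 v ≠ ω.2 v ∧ White v ∧ L = comp ω v := by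
    obtain ⟨v, hv, rfl⟩ := hL
    by_cases hw : White v
    · exact ⟨v, hv, hw, rfl⟩
    · have hm : ω.1 v ∈ comp ω v := same_m1 ω v
      refine ⟨ω.1 v, ne_of_mem_comp hω hv hm, ?_, (comp_eq_of_mem hω hm).symm⟩
      rw [white_iff_not_even] at hw ⊢
      rw [adj_even (adj1 hω (mem_V_of_ne hω hv)), not_not]
      exact not_not.1 hw
  subst hLv
  have hvV := mem_V_of_ne hω hv
  have hve : ¬ Even (v.1 + v.2) := white_iff_not_even.1 hw
  have hper : (rot ω)^[minimalPeriod (rot ω) v] v = v := iterate_minimalPeriod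
  have hnext : ∀ i : ZMod (cyc hω hv).n, (cyc hω hv).c (i + 1) = seq ω v (i.val + 1) := by
    intro i
    rw [cyc_c, ZMod.val_add, ZMod.val_one'' (by have := (cyc hω hv).hn; omega)]
    exact seq_mod hper _
  refine ⟨cyc hω hv, cyc_verts hω hv, ?_, ?_, ?_, ?_, vedge_iff hω hv, surr_iff hω hv⟩
  · rw [cyc_n]; exact even_two_mul _
  · rw [cyc_c]
    simpa [seq] using hw
  · intro i hi
    refine ⟨?_, ?_⟩
    · rw [cyc_c, white_iff_not_even, seq_parity hω hvV]
      simp [hi, hve]
    · rw [hnext, cyc_c, seq_succ, if_pos hi]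
  · intro i hi
    refine ⟨?_, ?_⟩
    · have := (seq_parity hω hvV i.val)
      rw [cyc_c]
      unfold Black
      rw [this]
      simp [hi, hve]
    · rw [hnext, cyc_c, seq_succ, if_neg hi]

end Vale.Agent.P155.L
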