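import Vale.Agent.P155.L.Contour
import Vale.Agent.P155.Skel

/-!
# P155, block L: the contour property of the faces of a Temperleyan polygon
-/

namespace Vale.Agent.P155.L

open Finset

theorem mem_faceSet_iff {T : Temp} {v : Pt} : v ∈ T.faceSet ↔ (v.1 / 2, v.2 / 2) ∈ T.cells := by
  constructor
  · rintro ⟨f, hf, h1, h2, h3, h4⟩
    have e1 : v.1 / 2 = f.1 := by omega
    have e2 : v.2 / 2 = f.2 := by omega
    rw [e1, e2]
    exact hf
  · intro h
    exact ⟨(v.1 / 2, v.2 / 2), h, by simp only; omega, by simp only; omega, by simp only; omega,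
      by simp only; omega⟩

theorem dn_eq_iff {p q : Pt} {r : ℕ} : dn p q = r ↔ dinf p q = r := by
  unfold dn
  have h : 0 ≤ dinf p q := le_max_of_le_left (abs_nonneg _)
  omega

/-- **contour property of the polygon** -/
theorem cp_faceSet (T : Temp) : Skel.CP T.faceSet := by
  intro p hp r
  by_contra hcon
  push Not at hcon
  have hall : ∀ q : Pt, dinf p q = r → q ∈ T.faceSet := by
    intro q hq
    by_contra h
    exact hcon q h (dn_eq_iff.2 hq)
  have hr0 : (0 : ℤ) ≤ r := Int.natCast_nonneg r
  apply hp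
  rw [mem_faceSet_iff]
  have key := rect_contour (γ := T.γ) (a := (p.1 - r) / 2) (b := (p.1 + r) / 2) (c := (p.2 - r) / 2)
    (d := (p.2 + r) / 2) ?_ (p.1 / 2, p.2 / 2) (by simp only; omega) (by simp only; omega)
    (by simp only; omega) (by simp only; omega)
  · exact key
  rintro ⟨X, Y⟩ h1 h2 h3 h4 hb
  simp only at h1 h2 h3 h4 hb
  -- a fine face in the ring inside the coarse cell
  have cell : ∀ q : Pt, dinf p q = r → q.1 / 2 = X → q.2 / 2 = Y → T.γ.inside (X, Y) := by
    intro q hq e1 e2
    have := mem_faceSet_iff.1 (hall q hq)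
    rw [e1, e2] at this
    exact this
  have dl : ∀ y : ℤ, |p.2 - y| ≤ r → dinf p (p.1 - r, y) = r := by
    intro y hy
    simp only [dinf, sub_sub_cancel, abs_of_nonneg hr0]
    exact max_eq_left hy
  have dr : ∀ y : ℤ, |p.2 - y| ≤ r → dinf p (p.1 + r, y) = r := by
    intro y hy
    simp only [dinf, sub_add_cancel_left, abs_neg, abs_of_nonneg hr0]
    exact max_eq_left hy
  have db : ∀ x : ℤ, |p.1 - x| ≤ r → dinf p (x, p.2 - r) = r := by
    intro y hy
    simp only [dinf, sub_sub_cancel, abs_of_nonneg hr0]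
    exact max_eq_right hy
  have dt : ∀ x : ℤ, |p.1 - x| ≤ r → dinf p (x, p.2 + r) = r := by
    intro y hy
    simp only [dinf, sub_add_cancel_left, abs_neg, abs_of_nonneg hr0]
    exact max_eq_right hy
  rcases hb with hb | hb | hb | hb
  · refine cell (p.1 - r, max (2 * Y) (p.2 - r)) (dl _ ?_) hb.symm ?_
    · rw [abs_le]; omega
    · simp only; omega
  · refine cell (p.1 + r, max (2 * Y) (p.2 - r)) (dr _ ?_) hb.symm ?_
    · rw [abs_le]; omega
    · simp only; omega
  · refine cell (max (2 * X) (p.1 - r), p.2 - r) (db _ ?_) ?_ hb.symm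
    · rw [abs_le]; omega
    · simp only; omega
  · refine cell (max (2 * X) (p.1 - r), p.2 + r) (dt _ ?_) ?_ hb.symm
    · rw [abs_le]; omega
    · simp only; omega

end Vale.Agent.P155.L
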