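import Mathlib

/-!
# P155, block L: levels in a finite laminar family
-/

namespace Vale.Agent.P155.L

open Set

variable {ι α : Type*}

/-- a finite family of nonempty sets, pairwise strictly nested or disjoint -/
structure Laminar (S : Set ι) (I : ι → Set α) : Prop where
  fin : S.Finite
  ne : ∀ a ∈ S, (I a).Nonempty
  lam : ∀ a ∈ S, ∀ b ∈ S, a ≠ b → I a ⊂ I b ∨ I b ⊂ I a ∨ Disjoint (I a) (I b)

/-- the level of a member: the number of members containing it -/
noncomputable def lev (S : Set ι) (I : ι → Set α) (a : ι) : ℕ := ncard {b | b ∈ S ∧ I a ⊆ I b}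

/-- the number of members containing a point -/
noncomputable def num (S : Set ι) (I : ι → Set α) (x : α) : ℕ := ncard {b | b ∈ S ∧ x ∈ I b}

variable {S : Set ι} {I : ι → Set α}

namespace Laminar

theorem fin_sub (h : Laminar S I) (p : ι → Prop) : {b | b ∈ S ∧ p b}.Finite :=
  h.fin.subset fun _ hb => hb.1

theorem lev_lt (h : Laminar S I) {a b : ι} (ha : a ∈ S) (hab : I a ⊂ I b) :
    lev S I b < lev S I a := by
  apply ncard_lt_ncard _ (h.fin_sub _)
  refine ⟨fun c hc => ⟨hc.1, hab.1.trans hc.2⟩, fun hsub => ?_⟩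
  exact hab.2 (hsub ⟨ha, Subset.rfl⟩).2

theorem one_le_lev (h : Laminar S I) {a : ι} (ha : a ∈ S) : 1 ≤ lev S I a := by
  rw [Nat.one_le_iff_ne_zero, Ne, lev, ncard_eq_zero (h.fin_sub _)]
  intro he
  exact (he ▸ (⟨ha, Subset.rfl⟩ : a ∈ {b | b ∈ S ∧ I a ⊆ I b}) : a ∈ (∅ : Set ι))

theorem lev_le_num (h : Laminar S I) {a : ι} {x : α} (hx : x ∈ I a) :
    lev S I a ≤ num S I x :=
  ncard_le_ncard (fun _ hb => ⟨hb.1, hb.2 hx⟩) (h.fin_sub _)

theorem cmp (h : Laminar S I) {a b : ι} {x : α} (ha : a ∈ S) (hb : b ∈ S) (hxa : x ∈ I a)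
    (hxb : x ∈ I b) (hne : a ≠ b) : I a ⊂ I b ∨ I b ⊂ I a := by
  rcases h.lam a ha b hb hne with h1 | h1 | h1
  · exact Or.inl h1
  · exact Or.inr h1
  · exact absurd hxb (disjoint_left.1 h1 hxa)

theorem lev_inj (h : Laminar S I) {a b : ι} {x : α} (ha : a ∈ S) (hb : b ∈ S) (hxa : x ∈ I a)
    (hxb : x ∈ I b) (hl : lev S I a = lev S I b) : a = b := by
  by_contra hne
  rcases h.cmp ha hb hxa hxb hne with h1 | h1
  · exact absurd (h.lev_lt ha h1) (by omega)
  · exact absurd (h.lev_lt hb h1) (by omega)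

/-- comparison of levels of members around the same point -/
theorem lev_lt_iff (h : Laminar S I) {a b : ι} {x : α} (ha : a ∈ S) (hb : b ∈ S) (hxa : x ∈ I a)
    (hxb : x ∈ I b) : lev S I b < lev S I a ↔ I a ⊂ I b := by
  constructor
  · intro hl
    have hne : a ≠ b := by rintro rfl; exact lt_irrefl _ hl
    rcases h.cmp ha hb hxa hxb hne with h1 | h1
    · exact h1
    · exact absurd (h.lev_lt hb h1) (by omega)
  · exact h.lev_lt ha

theorem lev_le_iff (h : Laminar S I) {a b : ι} {x : α} (ha : a ∈ S) (hb : b ∈ S) (hxa : x ∈ I a)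
    (hxb : x ∈ I b) : lev S I b ≤ lev S I a ↔ I a ⊆ I b := by
  constructor
  · intro hl
    rcases hl.lt_or_eq with h1 | h1
    · exact ((h.lev_lt_iff ha hb hxa hxb).1 h1).1
    · rw [h.lev_inj ha hb hxa hxb h1.symm]
  · intro hs
    by_contra hlt
    have := (h.lev_lt_iff hb ha hxb hxa).1 (not_le.1 hlt)
    exact this.2 hs

/-- every level up to the number of members around `x` is attained (exactly once) around `x` -/
theorem exists_lev (h : Laminar S I) {x : α} {k : ℕ} (h1 : 1 ≤ k) (h2 : k ≤ num S I x) :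
    ∃ a, a ∈ S ∧ x ∈ I a ∧ lev S I a = k := by
  have hfin : {b | b ∈ S ∧ x ∈ I b}.Finite := h.fin_sub _
  have hinj : InjOn (lev S I) {b | b ∈ S ∧ x ∈ I b} := fun a ha b hb hab =>
    h.lev_inj ha.1 hb.1 ha.2 hb.2 hab
  have himg : lev S I '' {b | b ∈ S ∧ x ∈ I b} ⊆ Icc 1 (num S I x) := by
    rintro _ ⟨a, ha, rfl⟩
    exact ⟨h.one_le_lev ha.1, h.lev_le_num ha.2⟩
  have hcard : (lev S I '' {b | b ∈ S ∧ x ∈ I b}).ncard = num S I x := by
    rw [hinj.ncard_image, num]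
  have heq : lev S I '' {b | b ∈ S ∧ x ∈ I b} = Icc 1 (num S I x) := by
    apply eq_of_subset_of_ncard_le himg _ (finite_Icc _ _)
    rw [hcard, ← Nat.card_coe_set_eq, Nat.card_eq_fintype_card]
    simp
  have hk : k ∈ lev S I '' {b | b ∈ S ∧ x ∈ I b} := heq ▸ ⟨h1, h2⟩
  obtain ⟨a, ha, hak⟩ := hk
  exact ⟨a, ha.1, ha.2, hak⟩

/-- `x` lies in at least `k ≥ 1` members iff it lies in a member of level `k` -/
theorem le_num_iff (h : Laminar S I) {x : α} {k : ℕ} (h1 : 1 ≤ k) :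
    k ≤ num S I x ↔ ∃ a, a ∈ S ∧ x ∈ I a ∧ lev S I a = k := by
  constructor
  · exact h.exists_lev h1
  · rintro ⟨a, _, hx, rfl⟩
    exact h.lev_le_num hx

/-- every member of level `> k ≥ 1` is strictly inside a member of level `k` -/
theorem exists_above (h : Laminar S I) {a : ι} (ha : a ∈ S) {k : ℕ} (h1 : 1 ≤ k)
    (hk : k < lev S I a) : ∃ b ∈ S, lev S I b = k ∧ I a ⊂ I b := by
  obtain ⟨x, hx⟩ := h.ne a ha
  obtain ⟨b, hb, hxb, hbk⟩ := h.exists_lev h1 (hk.le.trans (h.lev_le_num hx))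
  exact ⟨b, hb, hbk, (h.lev_lt_iff ha hb hx hxb).1 (by omega)⟩

end Laminar

end Vale.Agent.P155.L
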