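import Vale.Agent.P155.A.JCT2
import Vale.Agent.P155.L.Face0
import Vale.Agent.P155.L.Level

/-!
# P155, block L2: the loops form a laminar family; `L_cp` and `L_same`
-/

namespace Vale.Agent.P155.L

open Finset LatCycle

variable {V : Finset Pt} {ω : Conf}

/-- the interior of a loop -/
def intr (ω : Conf) (L : Set Pt) : Set Pt := {f | surr ω L f}

theorem mem_intr {L : Set Pt} {f : Pt} : f ∈ intr ω L ↔ surr ω L f := Iff.rfl

theorem level_eq (ω : Conf) (L : Set Pt) : level ω L = lev (Loops ω) (intr ω) L := rfl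

theorem N_eq (ω : Conf) (f : Pt) : N ω f = num (Loops ω) (intr ω) f := rfl

/-- trichotomy for two distinct loops -/
theorem loop_tri (hω : ω ∈ DD V) {L L' : Set Pt} (hL : L ∈ Loops ω) (hL' : L' ∈ Loops ω)
    (hne : L ≠ L') :
    ((∀ v ∈ L', surr ω L v) ∧ (∀ v ∈ L, ¬ surr ω L' v) ∧ intr ω L' ⊂ intr ω L) ∨
      ((∀ v ∈ L, surr ω L' v) ∧ (∀ v ∈ L', ¬ surr ω L v) ∧ intr ω L ⊂ intr ω L') ∨
      ((∀ v ∈ L', ¬ surr ω L v) ∧ (∀ v ∈ L, ¬ surr ω L' v) ∧ Disjoint (intr ω L) (intr ω L')) := by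
  obtain ⟨γ, h1, _, h2⟩ := exists_cycle hω hL
  obtain ⟨γ', h1', _, h2'⟩ := exists_cycle hω hL'
  have hd : Disjoint γ.verts γ'.verts := by
    rw [h1, h1']; exact loops_disjoint hω hL hL' hne
  have hi : intr ω L = {f | γ.inside f} := by ext f; exact h2 f
  have hi' : intr ω L' = {f | γ'.inside f} := by ext f; exact h2' f
  have hneq : intr ω L ≠ intr ω L' := by
    intro h
    obtain ⟨f, hf⟩ := inside_ne hd
    apply hf
    have := Set.ext_iff.1 h f
    rw [hi, hi'] at this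
    exact this
  rcases trichotomy hd with ⟨a, b, c⟩ | ⟨a, b, c⟩ | ⟨a, b, c⟩
  · left
    refine ⟨fun v hv => (h2 v).2 (a v (h1' ▸ hv)), fun v hv h => b v (h1 ▸ hv) ((h2' v).1 h), ?_⟩
    rw [Set.ssubset_iff_subset_ne]
    refine ⟨?_, hneq.symm⟩
    intro f hf
    exact (h2 f).2 (c f ((h2' f).1 hf))
  · right; left
    refine ⟨fun v hv => (h2' v).2 (a v (h1 ▸ hv)), fun v hv h => b v (h1' ▸ hv) ((h2 v).1 h), ?_⟩
    rw [Set.ssubset_iff_subset_ne]
    refine ⟨?_, hneq⟩
    intro f hf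
    exact (h2' f).2 (c f ((h2 f).1 hf))
  · right; right
    refine ⟨fun v hv h => a v (h1' ▸ hv) ((h2 v).1 h), fun v hv h => b v (h1 ▸ hv) ((h2' v).1 h), ?_⟩
    rw [Set.disjoint_left]
    intro f hf hf'
    exact c f ((h2 f).1 hf) ((h2' f).1 hf')

theorem intr_finite (hω : ω ∈ DD V) {L : Set Pt} (hL : L ∈ Loops ω) : (intr ω L).Finite := by
  obtain ⟨γ, _, _, h2⟩ := exists_cycle hω hL
  refine (inside_finite (γ := γ)).subset ?_
  intro f hf
  exact (h2 f).1 hf

theorem intr_nonempty (hω : ω ∈ DD V) {L : Set Pt} (hL : L ∈ Loops ω) : (intr ω L).Nonempty := by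
  obtain ⟨γ, _, _, h2⟩ := exists_cycle hω hL
  obtain ⟨F, hF⟩ := exists_inside (γ := γ)
  exact ⟨F, (h2 F).2 hF⟩

/-- **the loops form a laminar family** -/
theorem laminar (hω : ω ∈ DD V) : Laminar (Loops ω) (intr ω) where
  fin := loops_finite hω
  ne := fun _ ha => intr_nonempty hω ha
  lam := by
    intro a ha b hb hne
    rcases loop_tri hω ha hb hne with h | h | h
    · exact Or.inr (Or.inl h.2.2)
    · exact Or.inl h.2.2
    · exact Or.inr (Or.inr h.2.2)

/-- if a vertex of `L` is strictly inside `L'` then `L` is strictly inside `L'` -/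
theorem intr_ssubset_of_vert (hω : ω ∈ DD V) {L L' : Set Pt} (hL : L ∈ Loops ω)
    (hL' : L' ∈ Loops ω) {v : Pt} (hv : v ∈ L) (hv' : v ∉ L') (h : surr ω L' v) :
    intr ω L ⊂ intr ω L' := by
  have hne : L ≠ L' := by rintro rfl; exact hv' hv
  rcases loop_tri hω hL hL' hne with a | a | a
  · exact absurd h (a.2.1 v hv)
  · exact a.2.2
  · exact absurd h (a.2.1 v hv)

/-- if `int L ⊂ int L'` strictly, all vertices of `L` are strictly inside `L'` -/
theorem vert_of_intr_ssubset (hω : ω ∈ DD V) {L L' : Set Pt} (hL : L ∈ Loops ω)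
    (hL' : L' ∈ Loops ω) (h : intr ω L ⊂ intr ω L') {v : Pt} (hv : v ∈ L) :
    v ∉ L' ∧ surr ω L' v := by
  have hne : L ≠ L' := by rintro rfl; exact h.2 Set.Subset.rfl
  refine ⟨Set.disjoint_left.1 (loops_disjoint hω hL hL' hne) hv, ?_⟩
  rcases loop_tri hω hL hL' hne with a | a | a
  · exact absurd h.1 a.2.2.2
  · exact a.1 v hv
  · obtain ⟨f, hf⟩ := intr_nonempty hω hL
    exact absurd (h.1 hf) (Set.disjoint_left.1 a.2.2 hf)

/-- loops of level `> k` consist of vertices strictly inside loops of level `k` -/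
theorem loop_subset_Vk (hω : ω ∈ DD V) {k : ℕ} {L : Set Pt} (hL : L ∈ Loops ω)
    (h : k < level ω L) : L ⊆ Vk V k ω := by
  intro v hv
  refine ⟨loop_subset hω hL hv, ?_⟩
  rcases Nat.eq_zero_or_pos k with h0 | h0
  · exact Or.inl h0
  · right
    obtain ⟨L', hL', hk, hs⟩ := (laminar hω).exists_above hL h0 h
    have := vert_of_intr_ssubset hω hL hL' hs hv
    exact ⟨L', hL', hk, this.1, this.2⟩

/-- crossing from a face to an adjacent one, the loops around are the same except at most one -/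
theorem surr_adj_of_ne (hω : ω ∈ DD V) {L L' : Set Pt} (hL : L ∈ Loops ω) (hL' : L' ∈ Loops ω)
    (hne : L ≠ L') {f g : Pt} (hfg : Adj f g) (hf : surr ω L f) (hg : ¬ surr ω L g) :
    surr ω L' f ↔ surr ω L' g := by
  obtain ⟨γ, h1, _, h2⟩ := exists_cycle hω hL
  obtain ⟨γ', h1', _, h2'⟩ := exists_cycle hω hL'
  have hd : Disjoint γ.verts γ'.verts := by
    rw [h1, h1']; exact loops_disjoint hω hL hL' hne
  rw [h2] at hf hg
  rw [h2', h2']
  obtain ⟨u, v, he, hsf, hsg⟩ := common_edge hfg hf hg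
  have hu : u ∉ γ'.verts := Set.disjoint_left.1 hd he.mem_left
  rw [inside_corner hu hsf.1, inside_corner hu hsg.1]

/-- two adjacent faces with at least `k ≥ 1` loops lie in the same loop of level `k` -/
theorem same_level_adj (hω : ω ∈ DD V) {k : ℕ} (hk : 1 ≤ k) {L : Set Pt} (hL : L ∈ Loops ω)
    (hlev : level ω L = k) {f g : Pt} (hfg : Adj f g) (hf : surr ω L f) (hg : k ≤ N ω g) :
    surr ω L g := by
  by_contra hcon
  obtain ⟨L', hL', hg', hk'⟩ := (laminar hω).exists_lev hk hg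
  have hne : L ≠ L' := by rintro rfl; exact hcon hg'
  have h1 : surr ω L' f := (surr_adj_of_ne hω hL hL' hne hfg hf hcon).2 hg'
  exact hne ((laminar hω).lev_inj hL hL' hf h1 (hlev.trans hk'.symm))

/-- **`L_cp`** -/
theorem l_cp : Skel.L_cp := by
  intro T k ω hω p hp r
  by_contra hcon
  push Not at hcon
  have hall : ∀ q : Pt, dinf p q = r → q ∈ Ok T k ω := by
    intro q hq
    by_contra h
    exact hcon q h (dn_eq_iff.2 hq)
  have hp0 : p ∈ T.faceSet := by
    by_contra h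
    obtain ⟨y, hy, hd⟩ := cp_faceSet T p h r
    exact hy (hall y (dn_eq_iff.1 hd)).1
  apply hp
  refine ⟨hp0, ?_⟩
  rcases Nat.eq_zero_or_pos k with h0 | h0
  · rw [h0]; exact Nat.zero_le _
  · -- the level-`k` loop around one face of the ring surrounds all of them
    have hr0 : (0 : ℤ) ≤ r := Int.natCast_nonneg r
    have hq0 : dinf p (p.1 - r, p.2) = r := by
      simp only [dinf, sub_sub_cancel, abs_of_nonneg hr0, sub_self, abs_zero]
      exact max_eq_left hr0
    obtain ⟨L, hL, hs, hlev⟩ := (laminar hω).exists_lev h0 (hall _ hq0).2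
    obtain ⟨γ, h1, _, h2⟩ := exists_cycle hω hL
    have hring : ∀ q : Pt, dinf p q = r → surr ω L q := by
      intro q hq
      refine ring_const (P := fun f => surr ω L f) ?_ hq0 hq hs
      intro f g hf hg hadj hsf
      exact same_level_adj hω h0 hL hlev hadj hsf (hall g hg).2
    have hins : γ.inside p := sq_contour (fun q hq => (h2 q).1 (hring q hq))
    exact ((laminar hω).le_num_iff h0).2 ⟨L, hL, (h2 p).2 hins, hlev⟩

/-- **`L_same`** -/
theorem l_same : Skel.L_same := by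
  intro T k hk ω hω x hx
  obtain ⟨L, hL, hs, hlev⟩ := (laminar hω).exists_lev hk hx.2
  refine ⟨L, hL, hlev, hs, ?_⟩
  intro L' hL' hlt hs'
  have h1 : intr ω L' ⊂ intr ω L :=
    ((laminar hω).lev_lt_iff hL' hL hs' hs).1 (by rw [hlev]; exact hlt)
  refine ⟨fun y hy => h1.1 hy, ?_⟩
  rintro rfl
  exact h1.2 Set.Subset.rfl

end Vale.Agent.P155.L
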