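import Vale.Agent.P155.L.Expl
import Vale.Agent.P155.HT426.Wind

/-!
# P155, block L: `L_hk`
-/

namespace Vale.Agent.P155.L

/-- **`L_hk`** -/
theorem l_hk : Skel.L_hk := by
  intro T k ω hω ω' hω' hA
  exact ⟨Ok_eq hω hω' hA, hk_eq_all hω hω' hA,
    fun _ hx => HT.h_eq_hk_of hω (N_le_of_notMem_Ok hω hx)⟩

end Vale.Agent.P155.L
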