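import Vale.Agent.P155.L.Nest
import Vale.Agent.P155.A.InLoop
import Vale.Agent.P155.Skel

/-!
# P155, block L: the loops of level `≤ k` form an exploration (`L_expl`), transfer of the levels
-/

namespace Vale.Agent.P155.L

open Finset LatCycle

variable {V : Finset Pt} {ω ω' : Conf}

/-! ### transferring one loop -/

theorem loop_transfer {L : Set Pt} (mL : L ∈ Loops ω)
    (h1 : ∀ v ∈ L, ω'.1 v = ω.1 v) (h2 : ∀ v ∈ L, ω'.2 v = ω.2 v) : L ∈ Loops ω' := by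
  obtain ⟨v, hv, hLv⟩ := mL
  have hvL : v ∈ L := by rw [hLv]; exact same_refl ω v
  have hm1 : ∀ u ∈ L, ω.1 u ∈ L := by
    intro u hu; rw [hLv] at hu ⊢; exact same_trans hu (same_m1 ω u)
  have hm2 : ∀ u ∈ L, ω.2 u ∈ L := by
    intro u hu; rw [hLv] at hu ⊢; exact same_trans hu (same_m2 ω u)
  refine ⟨v, by rw [h1 v hvL, h2 v hvL]; exact hv, ?_⟩
  apply Set.Subset.antisymm
  · -- `L ⊆ comp ω' v`
    have h3 : comp ω v ⊆ {u | u ∈ L ∧ u ∈ comp ω' v} := by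
      apply comp_subset_of_closed
      · exact ⟨hvL, same_refl ω' v⟩
      · rintro u ⟨hu1, hu2⟩
        refine ⟨hm1 u hu1, ?_⟩
        rw [← h1 u hu1]
        exact same_trans hu2 (same_m1 ω' u)
      · rintro u ⟨hu1, hu2⟩
        refine ⟨hm2 u hu1, ?_⟩
        rw [← h2 u hu1]
        exact same_trans hu2 (same_m2 ω' u)
    rw [← hLv] at h3
    exact fun u hu => (h3 hu).2
  · apply comp_subset_of_closed
    · exact hvL
    · intro u hu; rw [h1 u hu]; exact hm1 u hu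
    · intro u hu; rw [h2 u hu]; exact hm2 u hu

theorem vedgeL_congr {L : Set Pt} (h1 : ∀ v ∈ L, ω'.1 v = ω.1 v) (h2 : ∀ v ∈ L, ω'.2 v = ω.2 v)
    (j y : ℤ) : vedgeL ω' L j y ↔ vedgeL ω L j y := by
  unfold vedgeL
  constructor
  · rintro ⟨h3, h4⟩
    rw [h1 _ h3, h2 _ h3] at h4
    exact ⟨h3, h4⟩
  · rintro ⟨h3, h4⟩
    rw [← h1 _ h3, ← h2 _ h3] at h4
    exact ⟨h3, h4⟩

theorem surr_congr {L : Set Pt} (h1 : ∀ v ∈ L, ω'.1 v = ω.1 v) (h2 : ∀ v ∈ L, ω'.2 v = ω.2 v)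
    (f : Pt) : surr ω' L f ↔ surr ω L f := by
  unfold surr
  simp only [vedgeL_congr h1 h2]

theorem intr_congr {L : Set Pt} (h1 : ∀ v ∈ L, ω'.1 v = ω.1 v) (h2 : ∀ v ∈ L, ω'.2 v = ω.2 v) :
    intr ω' L = intr ω L := by
  ext f; exact surr_congr h1 h2 f

theorem hL_congr {L : Set Pt} (h1 : ∀ v ∈ L, ω'.1 v = ω.1 v) (h2 : ∀ v ∈ L, ω'.2 v = ω.2 v)
    (f : Pt) : hL ω' L f = hL ω L f := by
  unfold hL
  refine finsum_congr fun j => ?_
  refine finsum_congr fun hj => ?_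
  unfold dh
  rw [h1 _ hj.2, h2 _ hj.2]

/-! ### two configurations agreeing off `Vk` -/

section

variable (hω : ω ∈ DD V) (hω' : ω' ∈ DD V) {k : ℕ} (k1 : 1 ≤ k) (hA : AgreeOff (Fk V k ω) ω ω')

theorem mem_Vk (k1 : 1 ≤ k) {v : Pt} :
    v ∈ Vk V k ω ↔ v ∈ V ∧ ∃ L ∈ Loops ω, level ω L = k ∧ v ∉ L ∧ surr ω L v := by
  unfold Vk
  simp only [Set.mem_ofPred_eq]
  have : ¬ k = 0 := by omega
  simp only [this, false_or]

/-- loops of level `≤ k` avoid `Vk` -/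
theorem notMem_Vk_of_level_le (hω : ω ∈ DD V) (k1 : 1 ≤ k) {L : Set Pt} (mL : L ∈ Loops ω)
    (hl : level ω L ≤ k) {v : Pt} (hv : v ∈ L) : v ∉ Vk V k ω := by
  intro h
  obtain ⟨_, L0, hL0, hl0, hv0, hs⟩ := (mem_Vk k1).1 h
  have h1 := intr_ssubset_of_vert hω mL hL0 hv hv0 hs
  have h2 := (laminar hω).lev_lt mL h1
  rw [← level_eq, ← level_eq, hl0] at h2
  omega

include hA in
theorem agree_of_notMem {v : Pt} (h : v ∉ Vk V k ω) : ω'.1 v = ω.1 v ∧ ω'.2 v = ω.2 v :=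
  ⟨hA.1 v h, hA.2 v h⟩

include hω hω' k1 hA in
/-- (i) loops of level `≤ k` persist -/
theorem persist {L : Set Pt} (mL : L ∈ Loops ω) (hl : level ω L ≤ k) :
    L ∈ Loops ω' ∧ intr ω' L = intr ω L ∧ (∀ f, hL ω' L f = hL ω L f) ∧
      ∀ v ∈ L, ω'.1 v = ω.1 v ∧ ω'.2 v = ω.2 v := by
  have h0 : ∀ v ∈ L, ω'.1 v = ω.1 v ∧ ω'.2 v = ω.2 v := fun v hv =>
    agree_of_notMem hA (notMem_Vk_of_level_le hω k1 mL hl hv)
  have h1 : ∀ v ∈ L, ω'.1 v = ω.1 v := fun v hv => (h0 v hv).1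
  have h2 : ∀ v ∈ L, ω'.2 v = ω.2 v := fun v hv => (h0 v hv).2
  exact ⟨loop_transfer mL h1 h2, intr_congr h1 h2, hL_congr h1 h2, h0⟩

include hω hω' k1 hA in
/-- a loop of `ω'` meeting `Vk` is strictly inside a loop of level `k` -/
theorem inside_of_meets {L : Set Pt} (mL : L ∈ Loops ω') {v : Pt} (hv : v ∈ L)
    (h : v ∈ Vk V k ω) : ∃ L0 ∈ Loops ω, level ω L0 = k ∧ L0 ∈ Loops ω' ∧
      intr ω' L0 = intr ω L0 ∧ intr ω' L ⊂ intr ω' L0 := by
  obtain ⟨_, L0, hL0, hl0, hv0, hs⟩ := (mem_Vk k1).1 h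
  obtain ⟨p1, p2, _⟩ := persist hω hω' k1 hA hL0 hl0.le
  refine ⟨L0, hL0, hl0, p1, p2, ?_⟩
  refine intr_ssubset_of_vert hω' mL p1 hv hv0 ?_
  have : v ∈ intr ω' L0 := by rw [p2]; exact hs
  exact this

include hA in
/-- a loop of `ω'` avoiding `Vk` is a loop of `ω` -/
theorem back_of_avoids {L : Set Pt} (mL : L ∈ Loops ω')
    (h : ∀ v ∈ L, v ∉ Vk V k ω) : L ∈ Loops ω ∧ intr ω L = intr ω' L := by
  have h1 : ∀ v ∈ L, ω.1 v = ω'.1 v := fun v hv => (agree_of_notMem hA (h v hv)).1.symm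
  have h2 : ∀ v ∈ L, ω.2 v = ω'.2 v := fun v hv => (agree_of_notMem hA (h v hv)).2.symm
  exact ⟨loop_transfer mL h1 h2, intr_congr h1 h2⟩

include hω hω' k1 hA in
/-- (ii) the level persists -/
theorem level_persist {L : Set Pt} (mL : L ∈ Loops ω) (hl : level ω L ≤ k) :
    level ω' L = level ω L := by
  obtain ⟨p1, p2, _, _⟩ := persist hω hω' k1 hA mL hl
  rw [level_eq, level_eq]
  unfold lev
  congr 1
  ext L'
  simp only [Set.mem_ofPred_eq]
  constructor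
  · rintro ⟨h1, h2⟩
    by_cases hm : ∃ v ∈ L', v ∈ Vk V k ω
    · exfalso
      obtain ⟨v, hv, hvk⟩ := hm
      obtain ⟨L0, hL0, hl0, q1, q2, q3⟩ := inside_of_meets hω hω' k1 hA h1 hv hvk
      have h3 : intr ω L ⊂ intr ω L0 := by
        rw [← p2, ← q2]
        exact lt_of_le_of_lt h2 q3
      have h4 := (laminar hω).lev_lt mL h3
      rw [← level_eq, ← level_eq, hl0] at h4
      omega
    · push Not at hm
      obtain ⟨h3, h4⟩ := back_of_avoids hA h1 hm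
      refine ⟨h3, ?_⟩
      rw [h4, ← p2]
      exact h2
  · rintro ⟨h1, h2⟩
    have h3 : level ω L' ≤ k := by
      obtain ⟨x, hx⟩ := intr_nonempty hω mL
      have := ((laminar hω).lev_le_iff mL h1 hx (h2 hx)).2 h2
      rw [← level_eq, ← level_eq] at this
      omega
    obtain ⟨q1, q2, _, _⟩ := persist hω hω' k1 hA h1 h3
    refine ⟨q1, ?_⟩
    rw [p2, q2]
    exact h2

include hω hω' k1 hA in
/-- (iii) no new loops of level `≤ k` -/
theorem no_new {L : Set Pt} (mL : L ∈ Loops ω') (hl : level ω' L ≤ k) :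
    L ∈ Loops ω ∧ level ω L ≤ k := by
  by_cases hm : ∃ v ∈ L, v ∈ Vk V k ω
  · exfalso
    obtain ⟨v, hv, hvk⟩ := hm
    obtain ⟨L0, hL0, hl0, q1, q2, q3⟩ := inside_of_meets hω hω' k1 hA mL hv hvk
    have h1 := level_persist hω hω' k1 hA hL0 hl0.le
    have h2 := (laminar hω').lev_lt mL q3
    rw [← level_eq, ← level_eq, h1, hl0] at h2
    omega
  · push Not at hm
    obtain ⟨h3, h4⟩ := back_of_avoids hA mL hm
    refine ⟨h3, ?_⟩
    by_contra hlt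
    obtain ⟨v, hv⟩ := loop_nonempty h3
    exact hm v hv (loop_subset_Vk hω h3 (not_le.1 hlt) hv)

include hω hω' k1 hA in
theorem loops_le_iff {L : Set Pt} :
    (L ∈ Loops ω' ∧ level ω' L ≤ k) ↔ (L ∈ Loops ω ∧ level ω L ≤ k) := by
  constructor
  · rintro ⟨h1, h2⟩; exact no_new hω hω' k1 hA h1 h2
  · rintro ⟨h1, h2⟩
    refine ⟨(persist hω hω' k1 hA h1 h2).1, ?_⟩
    rw [level_persist hω hω' k1 hA h1 h2]; exact h2

include hω hω' k1 hA in
theorem loops_eq_iff {L : Set Pt} :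
    (L ∈ Loops ω' ∧ level ω' L = k) ↔ (L ∈ Loops ω ∧ level ω L = k) := by
  constructor
  · rintro ⟨h1, h2⟩
    obtain ⟨h3, h4⟩ := no_new hω hω' k1 hA h1 h2.le
    exact ⟨h3, by rw [← level_persist hω hω' k1 hA h3 h4]; exact h2⟩
  · rintro ⟨h1, h2⟩
    refine ⟨(persist hω hω' k1 hA h1 h2.le).1, ?_⟩
    rw [level_persist hω hω' k1 hA h1 h2.le]; exact h2

include hω hω' k1 hA in
theorem surr_eq_iff {L : Set Pt} (mL : L ∈ Loops ω) (hl : level ω L ≤ k) (f : Pt) :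
    surr ω' L f ↔ surr ω L f := by
  have h := (persist hω hω' k1 hA mL hl).2.1
  exact Set.ext_iff.1 h f

include hω hω' k1 hA in
theorem Vk_eq : Vk V k ω' = Vk V k ω := by
  ext v
  rw [mem_Vk k1, mem_Vk k1]
  refine and_congr_right fun _ => ?_
  constructor
  · rintro ⟨L, h1, h2, h3, h4⟩
    obtain ⟨h5, h6⟩ := (loops_eq_iff hω hω' k1 hA).1 ⟨h1, h2⟩
    exact ⟨L, h5, h6, h3, (surr_eq_iff hω hω' k1 hA h5 h6.le v).1 h4⟩
  · rintro ⟨L, h1, h2, h3, h4⟩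
    obtain ⟨h5, h6⟩ := (loops_eq_iff hω hω' k1 hA).2 ⟨h1, h2⟩
    exact ⟨L, h5, h6, h3, (surr_eq_iff hω hω' k1 hA h1 h2.le v).2 h4⟩

include hω hω' k1 hA in
theorem le_N_iff (f : Pt) : k ≤ N ω' f ↔ k ≤ N ω f := by
  rw [N_eq, N_eq, (laminar hω').le_num_iff k1, (laminar hω).le_num_iff k1]
  constructor
  · rintro ⟨L, h1, h2, h3⟩
    obtain ⟨h5, h6⟩ := (loops_eq_iff hω hω' k1 hA).1 ⟨h1, h3⟩
    exact ⟨L, h5, (surr_eq_iff hω hω' k1 hA h5 h6.le f).1 h2, h6⟩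
  · rintro ⟨L, h1, h2, h3⟩
    obtain ⟨h5, h6⟩ := (loops_eq_iff hω hω' k1 hA).2 ⟨h1, h3⟩
    exact ⟨L, h5, (surr_eq_iff hω hω' k1 hA h1 (le_of_eq h3) f).2 h2, h6⟩

include hω hω' k1 hA in
theorem hk_eq : hk k ω' = hk k ω := by
  funext f
  unfold hk
  have hset : {L | L ∈ Loops ω' ∧ level ω' L ≤ k} = {L | L ∈ Loops ω ∧ level ω L ≤ k} := by
    ext L; exact loops_le_iff hω hω' k1 hA
  rw [hset]
  refine finsum_congr fun L => ?_
  refine finsum_congr fun hLk => ?_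
  exact (persist hω hω' k1 hA hLk.1 hLk.2).2.2.1 f

end

/-! ### `L_expl` -/

theorem Vk_zero (V : Finset Pt) (ω : Conf) : Vk V 0 ω = (V : Set Pt) := by
  ext v
  simp [Vk]

/-- partners of unexplored points are unexplored -/
theorem Vk_closed (hω : ω ∈ DD V) {k : ℕ} {v : Pt} (hv : v ∈ Vk V k ω) :
    v ∈ V ∧ ω.1 v ∈ Vk V k ω ∧ ω.2 v ∈ Vk V k ω := by
  rcases Nat.eq_zero_or_pos k with h0 | h0
  · subst h0
    rw [Vk_zero] at hv ⊢
    exact ⟨hv, mem1 hω hv, mem2 hω hv⟩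
  · have hvV := ((mem_Vk h0).1 hv).1
    obtain ⟨_, L, mL, hl, hvL, hs⟩ := (mem_Vk h0).1 hv
    have n1 : ω.1 v ∉ L := by
      intro h
      have := loop_m1 mL h
      rw [inv1 hω] at this
      exact hvL this
    have n2 : ω.2 v ∉ L := by
      intro h
      have := loop_m2 mL h
      rw [inv2 hω] at this
      exact hvL this
    refine ⟨hvV, (mem_Vk h0).2 ⟨mem1 hω hvV, L, mL, hl, n1, ?_⟩,
      (mem_Vk h0).2 ⟨mem2 hω hvV, L, mL, hl, n2, ?_⟩⟩
    · exact (A1.surr_adj hω mL (adj1 hω hvV) hvL n1).1 hs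
    · exact (A1.surr_adj hω mL (adj2 hω hvV) hvL n2).1 hs

theorem isExpl_Fk (V : Finset Pt) (k : ℕ) : IsExpl V (Fk V k) where
  sub1 := fun ω hω v hv => ⟨(Vk_closed hω hv).1, (Vk_closed hω hv).2.1⟩
  sub2 := fun ω hω v hv => ⟨(Vk_closed hω hv).1, (Vk_closed hω hv).2.2⟩
  det := by
    intro ω hω ω' hω' hA
    rcases Nat.eq_zero_or_pos k with h0 | h0
    · subst h0
      unfold Fk
      rw [Vk_zero, Vk_zero]
    · have := Vk_eq hω hω' h0 hA
      unfold Fk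
      rw [this]

/-- **`L_expl`** -/
theorem l_expl : Skel.L_expl := fun T k => isExpl_Fk T.V k

/-! ### `L_hk`, up to the decomposition of the height along the loops -/

/-- Two facts on heights needed here (blocks A7): the height is the sum of the contributions of
the loops, which vanish outside the loop. -/
structure HeightFacts (V : Finset Pt) (ω : Conf) : Prop where
  sum : ∀ f, h ω f = ∑ᶠ L ∈ Loops ω, hL ω L f
  out : ∀ L ∈ Loops ω, ∀ f, ¬ surr ω L f → hL ω L f = 0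

theorem level_le_N {L : Set Pt} (hω : ω ∈ DD V) {f : Pt} (hf : surr ω L f) :
    level ω L ≤ N ω f := (laminar hω).lev_le_num (x := f) hf

theorem h_eq_hk (hω : ω ∈ DD V) (hH : HeightFacts V ω) {k : ℕ} {x : Pt} (hx : N ω x ≤ k) :
    h ω x = hk k ω x := by
  rw [hH.sum]
  unfold hk
  refine finsum_congr fun L => ?_
  by_cases mL : L ∈ Loops ω
  · by_cases hl : level ω L ≤ k
    · have h1 : L ∈ {L | L ∈ Loops ω ∧ level ω L ≤ k} := ⟨mL, hl⟩
      simp only [mL, h1]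
    · have hns : ¬ surr ω L x := fun h => hl ((level_le_N hω h).trans hx)
      have h0 := hH.out L mL x hns
      simp [h0]
  · have h1 : L ∉ {L | L ∈ Loops ω ∧ level ω L ≤ k} := fun h => mL h.1
    simp only [mL, h1]

theorem N_eq_zero_of_notMem {T : Temp} (hω : ω ∈ DD T.V) {x : Pt} (hx : x ∉ T.faceSet) :
    N ω x = 0 := by
  unfold N
  have : {L | L ∈ Loops ω ∧ surr ω L x} = ∅ := by
    ext L
    simp only [Set.mem_ofPred_eq, Set.mem_empty_iff_false, iff_false, not_and]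
    intro mL hs
    exact hx (A1.L_in hω mL hs)
  rw [this, Set.ncard_empty]

theorem N_le_of_notMem_Ok {T : Temp} (hω : ω ∈ DD T.V) {k : ℕ} {x : Pt} (hx : x ∉ Ok T k ω) :
    N ω x ≤ k := by
  by_cases h : x ∈ T.faceSet
  · by_contra hlt
    exact hx ⟨h, by omega⟩
  · rw [N_eq_zero_of_notMem hω h]; exact Nat.zero_le _

theorem Ok_eq {T : Temp} (hω : ω ∈ DD T.V) (hω' : ω' ∈ DD T.V) {k : ℕ}
    (hA : AgreeOff (Fk T.V k ω) ω ω') : Ok T k ω' = Ok T k ω := by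
  rcases Nat.eq_zero_or_pos k with h0 | h0
  · subst h0; simp [Ok]
  · ext f
    unfold Ok
    simp only [Set.mem_ofPred_eq, le_N_iff hω hω' h0 hA]

theorem hk_zero_eq (hω : ω ∈ DD V) : hk 0 ω = 0 := by
  funext f
  unfold hk
  have : {L | L ∈ Loops ω ∧ level ω L ≤ 0} = ∅ := by
    ext L
    simp only [Set.mem_ofPred_eq, Set.mem_empty_iff_false, iff_false, not_and]
    intro mL hl
    have := (laminar hω).one_le_lev mL
    rw [← level_eq] at this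
    omega
  rw [this]
  simp

theorem hk_eq_all (hω : ω ∈ DD V) (hω' : ω' ∈ DD V) {k : ℕ}
    (hA : AgreeOff (Fk V k ω) ω ω') : hk k ω' = hk k ω := by
  rcases Nat.eq_zero_or_pos k with h0 | h0
  · subst h0; rw [hk_zero_eq hω, hk_zero_eq hω']
  · exact hk_eq hω hω' h0 hA

/-- **`L_hk`** from the height facts -/
theorem l_hk_of (hH : ∀ T : Temp, ∀ ω ∈ DD T.V, HeightFacts T.V ω) : Skel.L_hk := by
  intro T k ω hω ω' hω' hA
  exact ⟨Ok_eq hω hω' hA, hk_eq_all hω hω' hA,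
    fun x hx => h_eq_hk hω (hH T ω hω) (N_le_of_notMem_Ok hω hx)⟩

end Vale.Agent.P155.L
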