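import Vale.Agent.P155.A.Cross
import Vale.Agent.P155.L.Cycle

/-!
# P155, block L: contours of inside faces enclose only inside faces
-/

namespace Vale.Agent.P155.L

open Finset

variable {γ : LatCycle}

/-- propagation along the cycle -/
theorem cyc_const {P : Pt → Prop} (h : ∀ i, (P (γ.c i) ↔ P (γ.c (i + 1)))) (i j : ZMod γ.n) :
    P (γ.c i) ↔ P (γ.c j) := by
  have key : ∀ k : ℕ, P (γ.c (i + k)) ↔ P (γ.c i) := by
    intro k
    induction k with
    | zero => simp
    | succ k ih =>
      rw [← ih, h (i + k)]
      push_cast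
      rw [add_assoc]
  have h2 := key (j - i).val
  rw [ZMod.natCast_zmod_val, add_sub_cancel] at h2
  exact h2.symm

/-- **Contour lemma**: if all boundary faces of a rectangle of faces are inside the cycle, so are
all faces of the rectangle. -/
theorem rect_contour {a b c d : ℤ}
    (h : ∀ q : Pt, a ≤ q.1 → q.1 ≤ b → c ≤ q.2 → q.2 ≤ d →
      (q.1 = a ∨ q.1 = b ∨ q.2 = c ∨ q.2 = d) → γ.inside q)
    (p : Pt) (h1 : a ≤ p.1) (h2 : p.1 ≤ b) (h3 : c ≤ p.2) (h4 : p.2 ≤ d) : γ.inside p := by
  by_contra hp
  by_cases hb : p.1 = a ∨ p.1 = b ∨ p.2 = c ∨ p.2 = d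
  · exact hp (h p h1 h2 h3 h4 hb)
  push Not at hb
  obtain ⟨ha, hb', hc, hd⟩ := hb
  have h1 : a < p.1 := lt_of_le_of_ne h1 (Ne.symm ha)
  have h2 : p.1 < b := lt_of_le_of_ne h2 hb'
  have h3 : c < p.2 := lt_of_le_of_ne h3 (Ne.symm hc)
  have h4 : p.2 < d := lt_of_le_of_ne h4 hd
  let I : Pt → Prop := fun v => a + 1 ≤ v.1 ∧ v.1 ≤ b ∧ c + 1 ≤ v.2 ∧ v.2 ≤ d
  -- no edge of the cycle leaves `I`
  have hout : ∀ u v : Pt, I u → ¬ I v → ¬ γ.edge u v := by
    rintro ⟨x, y⟩ v hu hv he
    have hadj := mem_nbrs.2 he.adj
    simp only [nbrs, mem_insert, mem_singleton] at hadj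
    obtain ⟨u1, u2, u3, u4⟩ := hu
    simp only at u1 u2 u3 u4
    rcases hadj with rfl | rfl | rfl | rfl
    · -- to the right
      have hx : x = b := by
        by_contra hx
        exact hv ⟨by simp only; omega, by simp only; omega, by simp only; omega, by simp only; omega⟩
      have hh : γ.hedge x y := (LatCycle.hedge_iff γ x y).2 he
      refine (LatCycle.inside_iff_h' x y hh).1 (h (x, y) ?_ ?_ ?_ ?_ ?_) (h (x, y - 1) ?_ ?_ ?_ ?_ ?_)
      all_goals simp only
      all_goals omega
    · have hx : x = a + 1 := by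
        by_contra hx
        exact hv ⟨by simp only; omega, by simp only; omega, by simp only; omega, by simp only; omega⟩
      have hh : γ.hedge (x - 1) y := by
        rw [LatCycle.hedge_iff, sub_add_cancel, LatCycle.edge_comm]; exact he
      refine (LatCycle.inside_iff_h' (x - 1) y hh).1 (h (x - 1, y) ?_ ?_ ?_ ?_ ?_)
        (h (x - 1, y - 1) ?_ ?_ ?_ ?_ ?_)
      all_goals simp only
      all_goals omega
    · have hy : y = d := by
        by_contra hx
        exact hv ⟨by simp only; omega, by simp only; omega, by simp only; omega, by simp only; omega⟩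
      have hh : γ.vedge x y := (LatCycle.vedge_iff γ x y).2 he
      refine (LatCycle.inside_iff_v' x y hh).1 (h (x, y) ?_ ?_ ?_ ?_ ?_) (h (x - 1, y) ?_ ?_ ?_ ?_ ?_)
      all_goals simp only
      all_goals omega
    · have hy : y = c + 1 := by
        by_contra hx
        exact hv ⟨by simp only; omega, by simp only; omega, by simp only; omega, by simp only; omega⟩
      have hh : γ.vedge x (y - 1) := by
        rw [LatCycle.vedge_iff, sub_add_cancel, LatCycle.edge_comm]; exact he
      refine (LatCycle.inside_iff_v' x (y - 1) hh).1 (h (x, y - 1) ?_ ?_ ?_ ?_ ?_)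
        (h (x - 1, y - 1) ?_ ?_ ?_ ?_ ?_)
      all_goals simp only
      all_goals omega
  have hstep : ∀ i, I (γ.c i) ↔ I (γ.c (i + 1)) := by
    intro i
    have he : γ.edge (γ.c i) (γ.c (i + 1)) := ⟨i, Or.inl ⟨rfl, rfl⟩⟩
    constructor
    · intro hi
      by_contra hj
      exact hout _ _ hi hj he
    · intro hj
      by_contra hi
      exact hout _ _ hj hi (LatCycle.edge_comm.1 he)
  by_cases h0 : I (γ.c 0)
  · -- all vertices in `I`: the face `(a, p.2)` is outside
    have hall : ∀ v ∈ γ.verts, I v := by
      rintro _ ⟨i, rfl⟩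
      exact (cyc_const hstep i 0).2 h0
    have hq := h (a, p.2) le_rfl (by simp only; omega) (by simp only; omega) (by simp only; omega)
      (Or.inl rfl)
    unfold LatCycle.inside at hq
    have he : {j : ℤ | j ≤ (a, p.2).1 ∧ γ.vedge j (a, p.2).2} = ∅ := by
      ext j
      simp only [Set.mem_ofPred_eq, Set.mem_empty_iff_false, iff_false, not_and]
      intro hj hv
      have := (hall _ ((LatCycle.vedge_iff γ j _).1 hv).mem_left).1
      simp only at this
      omega
    rw [he] at hq
    simp at hq
  · have hall : ∀ v ∈ γ.verts, ¬ I v := by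
      rintro _ ⟨i, rfl⟩ hi
      exact h0 ((cyc_const hstep i 0).1 hi)
    have key : ∀ k : ℕ, (k : ℤ) ≤ p.1 - a → ¬ γ.inside (p.1 - k, p.2) := by
      intro k
      induction k with
      | zero => intro _; simpa using hp
      | succ k ih =>
        intro hk
        push_cast at hk
        have h5 := ih (by omega)
        have h6 : ¬ γ.vedge (p.1 - k) p.2 := by
          intro hv
          apply hall _ ((LatCycle.vedge_iff γ _ _).1 hv).mem_left
          exact ⟨by simp only; omega, by simp only; omega, by simp only; omega, by simp only; omega⟩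
        rw [LatCycle.inside_iff_v _ _ h6] at h5
        push_cast
        rw [← sub_sub]
        exact h5
    have h7 := key (p.1 - a).toNat (by rw [Int.toNat_of_nonneg (by omega)])
    rw [Int.toNat_of_nonneg (by omega), sub_sub_cancel] at h7
    exact h7 (h (a, p.2) le_rfl (by simp only; omega) (by simp only; omega) (by simp only; omega)
      (Or.inl rfl))

/-- propagation of a property along the faces of a square ring -/
theorem ring_const {P : Pt → Prop} {p : Pt} {r : ℕ}
    (h : ∀ q q', dinf p q = r → dinf p q' = r → Adj q q' → P q → P q') {q q' : Pt}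
    (hq : dinf p q = r) (hq' : dinf p q' = r) (hP : P q) : P q' := by
  -- vertical lines
  have vline : ∀ x : ℤ, |p.1 - x| = r → ∀ y y' : ℤ, |p.2 - y| ≤ r → |p.2 - y'| ≤ r →
      P (x, y) → P (x, y') := by
    intro x hx
    have up : ∀ k : ℕ, ∀ y : ℤ, |p.2 - y| ≤ r → |p.2 - (y + k)| ≤ r →
        (P (x, y) ↔ P (x, y + k)) := by
      intro k
      induction k with
      | zero => intro y _ _; simp
      | succ k ih =>
        intro y h1 h2
        push_cast at h2
        have h3 : |p.2 - (y + k)| ≤ r := by rw [abs_le] at *; omega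
        rw [ih y h1 h3]
        have d1 : dinf p (x, y + k) = r := by
          simp only [dinf, hx]; exact max_eq_left h3
        have d2 : dinf p (x, y + (k + 1)) = r := by
          simp only [dinf, hx]; exact max_eq_left h2
        push_cast
        constructor
        · exact h _ _ d1 d2 (by simp [Adj])
        · exact h _ _ d2 d1 (by simp [Adj])
    intro y y' h1 h2 hy
    rcases le_total y y' with hle | hle
    · have := (up (y' - y).toNat y h1 (by rw [Int.toNat_of_nonneg (by omega)]; simpa using h2)).1 hy
      rwa [Int.toNat_of_nonneg (by omega), add_sub_cancel] at this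
    · have := (up (y - y').toNat y' h2 (by rw [Int.toNat_of_nonneg (by omega)]; simpa using h1)).2
        (by rwa [Int.toNat_of_nonneg (by omega), add_sub_cancel])
      exact this
  have hline : ∀ y : ℤ, |p.2 - y| = r → ∀ x x' : ℤ, |p.1 - x| ≤ r → |p.1 - x'| ≤ r →
      P (x, y) → P (x', y) := by
    intro y hy
    have up : ∀ k : ℕ, ∀ x : ℤ, |p.1 - x| ≤ r → |p.1 - (x + k)| ≤ r →
        (P (x, y) ↔ P (x + k, y)) := by
      intro k
      induction k with
      | zero => intro x _ _; simp
      | succ k ih =>
        intro x h1 h2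
        push_cast at h2
        have h3 : |p.1 - (x + k)| ≤ r := by rw [abs_le] at *; omega
        rw [ih x h1 h3]
        have d1 : dinf p (x + k, y) = r := by
          simp only [dinf, hy]; exact max_eq_right h3
        have d2 : dinf p (x + (k + 1), y) = r := by
          simp only [dinf, hy]; exact max_eq_right h2
        push_cast
        constructor
        · exact h _ _ d1 d2 (by simp [Adj])
        · exact h _ _ d2 d1 (by simp [Adj])
    intro x x' h1 h2 hx
    rcases le_total x x' with hle | hle
    · have := (up (x' - x).toNat x h1 (by rw [Int.toNat_of_nonneg (by omega)]; simpa using h2)).1 hx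
      rwa [Int.toNat_of_nonneg (by omega), add_sub_cancel] at this
    · have := (up (x - x').toNat x' h2 (by rw [Int.toNat_of_nonneg (by omega)]; simpa using h1)).2
        (by rwa [Int.toNat_of_nonneg (by omega), add_sub_cancel])
      exact this
  have hr0 : (0 : ℤ) ≤ r := Int.natCast_nonneg r
  have e1 : |p.1 - (p.1 - r)| = r := by rw [sub_sub_cancel, abs_of_nonneg hr0]
  have e2 : |p.2 - (p.2 - r)| = r := by rw [sub_sub_cancel, abs_of_nonneg hr0]
  -- everything is connected to the corner
  have toc : ∀ q : Pt, dinf p q = r → (P q → P (p.1 - r, p.2 - r)) ∧ (P (p.1 - r, p.2 - r) → P q) := by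
    rintro ⟨x, y⟩ hd
    simp only [dinf] at hd
    have hx : |p.1 - x| ≤ r := hd ▸ le_max_left _ _
    have hy : |p.2 - y| ≤ r := hd ▸ le_max_right _ _
    rcases max_choice |p.1 - x| |p.2 - y| with hm | hm
    · have hxr : |p.1 - x| = r := hm ▸ hd
      constructor
      · intro h0
        exact hline _ e2 x _ hxr.le e1.le (vline x hxr y _ hy e2.le h0)
      · intro h0
        exact vline x hxr _ y e2.le hy (hline _ e2 _ x e1.le hxr.le h0)
    · have hyr : |p.2 - y| = r := hm ▸ hd
      constructor
      · intro h0
        exact vline _ e1 y _ hyr.le e2.le (hline y hyr x _ hx e1.le h0)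
      · intro h0
        exact hline y hyr _ x e1.le hx (vline _ e1 _ y e2.le hyr.le h0)
  exact (toc q' hq').2 ((toc q hq).1 hP)

/-- square version of the contour lemma -/
theorem sq_contour {p : Pt} {r : ℕ} (h : ∀ q, dinf p q = r → γ.inside q) : γ.inside p := by
  have hr0 : (0 : ℤ) ≤ r := Int.natCast_nonneg r
  apply rect_contour (a := p.1 - r) (b := p.1 + r) (c := p.2 - r) (d := p.2 + r) _ p
    (by omega) (by omega) (by omega) (by omega)
  intro q h1 h2 h3 h4 hb
  apply h
  have hx : |p.1 - q.1| ≤ r := by rw [abs_le]; omega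
  have hy : |p.2 - q.2| ≤ r := by rw [abs_le]; omega
  simp only [dinf]
  rcases hb with hb | hb | hb | hb
  · rw [max_eq_left]
    · rw [hb, sub_sub_cancel, abs_of_nonneg hr0]
    · rw [hb, sub_sub_cancel, abs_of_nonneg hr0]; exact hy
  · rw [max_eq_left]
    · rw [hb, sub_add_cancel_left, abs_neg, abs_of_nonneg hr0]
    · rw [hb, sub_add_cancel_left, abs_neg, abs_of_nonneg hr0]; exact hy
  · rw [max_eq_right]
    · rw [hb, sub_sub_cancel, abs_of_nonneg hr0]
    · rw [hb, sub_sub_cancel, abs_of_nonneg hr0]; exact hx
  · rw [max_eq_right]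
    · rw [hb, sub_add_cancel_left, abs_neg, abs_of_nonneg hr0]
    · rw [hb, sub_add_cancel_left, abs_neg, abs_of_nonneg hr0]; exact hx

end Vale.Agent.P155.L
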